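import Vale.Agent.Lib.P113_helper29.Energy

/-!
Uniqueness of classical solutions of the forced Navier-Stokes system on the torus.
-/

namespace Vale.Agent.Lib.P113

open Set MeasureTheory

theorem cont_slice {β : Type} [TopologicalSpace β] {g : ℝ → R3 → β} {T t : ℝ}
    (h : ContinuousOn (fun z : ℝ × R3 => g z.1 z.2) (Icc 0 T ×ˢ univ)) (ht : t ∈ Icc 0 T) :
    Continuous (g t) :=
  h.comp_continuous (f := fun x => (t, x)) (by fun_prop) (fun _ => ⟨ht, mem_univ _⟩)

theorem cont_time {β : Type} [TopologicalSpace β] {g : ℝ → R3 → β} {T : ℝ}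
    (h : ContinuousOn (fun z : ℝ × R3 => g z.1 z.2) (Icc 0 T ×ˢ univ)) (x : R3) :
    ContinuousOn (fun t => g t x) (Icc 0 T) :=
  h.comp (f := fun t => (t, x)) (by fun_prop) (fun _ ht => ⟨ht, mem_univ _⟩)

/-- velocity part of the uniqueness theorem -/
theorem velocity_unique {ν : ℝ} (hν : 0 ≤ ν) {f : ℝ → R3 → R3} {T : ℝ}
    {u v : ℝ → R3 → R3} {p q : ℝ → R3 → ℝ}
    (hu : IsClassicalSol ν f T u p) (hv : IsClassicalSol ν f T v q) :
    ∀ t ∈ Icc (0 : ℝ) T, ∀ x, v t x = u t x := by
  obtain ⟨ut, du, ddu, dp, cu, cut, cdu, cddu, cp, cdp, u0, Hu⟩ := hu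
  obtain ⟨vt, dv, ddv, dq, cv, cvt, cdv, cddv, cq, cdq, v0, Hv⟩ := hv
  have SU : ∀ t ∈ Icc (0 : ℝ) T, Snap ν (f t) (u t) (ut t) (fun j => du j t)
      (fun j => ddu j j t) (p t) (fun j => dp j t) := by
    intro t ht
    obtain ⟨h1, h2, -, h4⟩ := Hu t ht
    exact
      { cu := cont_slice cu ht
        cut := cont_slice cut ht
        cdu := fun j => cont_slice (cdu j) ht
        cddu := fun j => cont_slice (cddu j j) ht
        cp := cont_slice cp ht
        cdp := fun j => cont_slice (cdp j) ht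
        peru := h1
        perp := h2
        pdu := fun j i x => (hasDerivAt_pi.mp ((h4 x).2.1 j)) i
        pddu := fun j i x => (hasDerivAt_pi.mp ((h4 x).2.2.1 j j)) i
        pdp := fun j x => (h4 x).2.2.2.1 j
        eq := fun x i => (h4 x).2.2.2.2.1 i
        div := fun x => (h4 x).2.2.2.2.2 }
  have SV : ∀ t ∈ Icc (0 : ℝ) T, Snap ν (f t) (v t) (vt t) (fun j => dv j t)
      (fun j => ddv j j t) (q t) (fun j => dq j t) := by
    intro t ht
    obtain ⟨h1, h2, -, h4⟩ := Hv t ht
    exact
      { cu := cont_slice cv ht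
        cut := cont_slice cvt ht
        cdu := fun j => cont_slice (cdv j) ht
        cddu := fun j => cont_slice (cddv j j) ht
        cp := cont_slice cq ht
        cdp := fun j => cont_slice (cdq j) ht
        peru := h1
        perp := h2
        pdu := fun j i x => (hasDerivAt_pi.mp ((h4 x).2.1 j)) i
        pddu := fun j i x => (hasDerivAt_pi.mp ((h4 x).2.2.1 j j)) i
        pdp := fun j x => (h4 x).2.2.2.1 j
        eq := fun x i => (h4 x).2.2.2.2.1 i
        div := fun x => (h4 x).2.2.2.2.2 }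
  have hK : IsCompact (Icc (0 : ℝ) T ×ˢ Icc (0 : R3) 1) := isCompact_Icc.prod isCompact_Icc
  have hsub : Icc (0 : ℝ) T ×ˢ Icc (0 : R3) 1 ⊆ Icc (0 : ℝ) T ×ˢ (univ : Set R3) :=
    prod_mono_right (subset_univ _)
  -- the constant M
  obtain ⟨M, hM⟩ : ∃ M : ℝ, ∀ z ∈ Icc (0 : ℝ) T ×ˢ Icc (0 : R3) 1,
      ‖∑ j, ∑ i, |du j z.1 z.2 i|‖ ≤ M := by
    apply hK.exists_bound_of_continuousOn
    apply ContinuousOn.mono _ hsub
    fun_prop
  -- bounds for the integrands
  obtain ⟨C0, hC0⟩ : ∃ C : ℝ, ∀ z ∈ Icc (0 : ℝ) T ×ˢ Icc (0 : R3) 1,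
      ‖∑ i, (v z.1 z.2 i - u z.1 z.2 i) ^ 2‖ ≤ C := by
    apply hK.exists_bound_of_continuousOn
    apply ContinuousOn.mono _ hsub
    fun_prop
  obtain ⟨C1, hC1⟩ : ∃ C : ℝ, ∀ z ∈ Icc (0 : ℝ) T ×ˢ Icc (0 : R3) 1,
      ‖∑ i, 2 * (v z.1 z.2 i - u z.1 z.2 i) * (vt z.1 z.2 i - ut z.1 z.2 i)‖ ≤ C := by
    apply hK.exists_bound_of_continuousOn
    apply ContinuousOn.mono _ hsub
    fun_prop
  set μ : Measure R3 := volume.restrict (Icc (0 : R3) 1) with hμ
  have hfin : IsFiniteMeasure μ :=
    ⟨by rw [hμ, Measure.restrict_apply_univ]; exact isCompact_Icc.measure_lt_top⟩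
  let E : ℝ → ℝ := fun t => ∫ x, ∑ i, (v t x i - u t x i) ^ 2 ∂μ
  let E' : ℝ → ℝ := fun t => ∫ x, ∑ i, 2 * (v t x i - u t x i) * (vt t x i - ut t x i) ∂μ
  have hEcont : ContinuousOn E (Icc 0 T) := by
    apply continuousOn_of_dominated (bound := fun _ => C0)
    · intro t ht
      have c1 := (SU t ht).cu
      have c2 := (SV t ht).cu
      exact Continuous.aestronglyMeasurable (by fun_prop)
    · intro t ht
      apply ae_restrict_of_forall_mem measurableSet_Icc
      intro x hx
      exact hC0 (t, x) ⟨ht, hx⟩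
    · exact integrable_const _
    · apply Filter.Eventually.of_forall
      intro x
      have c1 := cont_time cu x
      have c2 := cont_time cv x
      fun_prop
  have hEderiv : ∀ t ∈ Ioo (0 : ℝ) T, HasDerivAt E (E' t) t := by
    intro t ht
    have htI : t ∈ Icc (0 : ℝ) T := Ioo_subset_Icc_self ht
    refine (hasDerivAt_integral_of_dominated_loc_of_deriv_le (μ := μ) (bound := fun _ => C1)
      (F := fun t x => ∑ i, (v t x i - u t x i) ^ 2)
      (F' := fun t x => ∑ i, 2 * (v t x i - u t x i) * (vt t x i - ut t x i))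
      (s := Ioo 0 T) (Ioo_mem_nhds ht.1 ht.2) ?_ ?_ ?_ ?_ ?_ ?_).2
    · filter_upwards [Ioo_mem_nhds ht.1 ht.2] with s hs
      have c1 := (SU s (Ioo_subset_Icc_self hs)).cu
      have c2 := (SV s (Ioo_subset_Icc_self hs)).cu
      exact Continuous.aestronglyMeasurable (by fun_prop)
    · have c1 := (SU t htI).cu
      have c2 := (SV t htI).cu
      exact Continuous.integrableOn_Icc (by fun_prop)
    · have c1 := (SU t htI).cu
      have c2 := (SV t htI).cu
      have c3 := (SU t htI).cut
      have c4 := (SV t htI).cut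
      exact Continuous.aestronglyMeasurable (by fun_prop)
    · apply ae_restrict_of_forall_mem measurableSet_Icc
      intro x hx s hs
      exact hC1 (s, x) ⟨Ioo_subset_Icc_self hs, hx⟩
    · exact integrable_const _
    · apply Filter.Eventually.of_forall
      intro x s hs
      have hsI : s ∈ Icc (0 : ℝ) T := Ioo_subset_Icc_self hs
      have d1 : HasDerivAt (fun r => u r x) (ut s x) s :=
        ((Hu s hsI).2.2.2 x).1.hasDerivAt (Icc_mem_nhds hs.1 hs.2)
      have d2 : HasDerivAt (fun r => v r x) (vt s x) s :=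
        ((Hv s hsI).2.2.2 x).1.hasDerivAt (Icc_mem_nhds hs.1 hs.2)
      apply HasDerivAt.fun_sum
      intro i _
      have e1 := (hasDerivAt_pi.mp d1) i
      have e2 := (hasDerivAt_pi.mp d2) i
      have := (e2.fun_sub e1).fun_pow 2
      simpa using this
  have hE'le : ∀ t ∈ Icc (0 : ℝ) T, E' t ≤ 2 * M * E t := by
    intro t ht
    apply energy_ineq hν (SU t ht) (SV t ht)
    intro x hx
    exact (le_abs_self _).trans (hM (t, x) ⟨ht, hx⟩)
  have hE0 : E 0 = 0 := by
    simp only [E, u0, v0]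
    simp
  have hEnn : ∀ t, 0 ≤ E t := fun t =>
    integral_nonneg (fun x => Finset.sum_nonneg (fun i _ => sq_nonneg _))
  -- Gronwall via monotonicity
  have hanti : AntitoneOn (fun t => E t * Real.exp (-(2 * M) * t)) (Icc 0 T) := by
    apply antitoneOn_of_deriv_nonpos (convex_Icc 0 T)
    · apply hEcont.mul
      fun_prop
    · rw [interior_Icc]
      intro t ht
      have h1 : HasDerivAt (fun t => Real.exp (-(2 * M) * t))
          (Real.exp (-(2 * M) * t) * (-(2 * M))) t := by
        have := ((hasDerivAt_id t).const_mul (-(2 * M))).exp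
        simpa using this
      exact ((hEderiv t ht).mul h1).differentiableAt.differentiableWithinAt
    · rw [interior_Icc]
      intro t ht
      have h1 : HasDerivAt (fun t => Real.exp (-(2 * M) * t))
          (Real.exp (-(2 * M) * t) * (-(2 * M))) t := by
        have := ((hasDerivAt_id t).const_mul (-(2 * M))).exp
        simpa using this
      have h2 := ((hEderiv t ht).fun_mul h1).deriv
      rw [h2]
      have h3 := hE'le t (Ioo_subset_Icc_self ht)
      have h4 := Real.exp_pos (-(2 * M) * t)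
      nlinarith
  have hEzero : ∀ t ∈ Icc (0 : ℝ) T, E t = 0 := by
    intro t ht
    have h0 : (0 : ℝ) ∈ Icc (0 : ℝ) T := ⟨le_rfl, ht.1.trans ht.2⟩
    have h1 := hanti h0 ht ht.1
    simp only [hE0, zero_mul] at h1
    have h4 := Real.exp_pos (-(2 * M) * t)
    have h5 := hEnn t
    nlinarith
  intro t ht x
  have c1 := (SU t ht).cu
  have c2 := (SV t ht).cu
  have hgc : Continuous (fun x => ∑ i, (v t x i - u t x i) ^ 2) := by fun_prop
  have hae : (fun x => ∑ i, (v t x i - u t x i) ^ 2) =ᵐ[volume.restrict (Icc (0 : R3) 1)] 0 := by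
    rw [← setIntegral_eq_zero_iff_of_nonneg_ae]
    · exact hEzero t ht
    · exact Filter.Eventually.of_forall (fun x => Finset.sum_nonneg (fun i _ => sq_nonneg _))
    · exact hgc.integrableOn_Icc
  have hcube : EqOn (fun x => ∑ i, (v t x i - u t x i) ^ 2) 0 (Icc (0 : R3) 1) := by
    apply Measure.eqOn_of_ae_eq hae hgc.continuousOn continuousOn_const
    rw [← pi_univ_Icc, interior_pi_set finite_univ, closure_pi_set]
    simp only [Pi.zero_apply, Pi.one_apply, interior_Icc, closure_Ioo (zero_ne_one' ℝ)]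
    exact subset_rfl
  have hper : Per (fun x => ∑ i, (v t x i - u t x i) ^ 2) := by
    apply Per.sum
    intro i _ y k
    simp only [(SU t ht).peru y k, (SV t ht).peru y k]
  obtain ⟨y, hy, hxy⟩ := hper.exists_cube x
  have hz : ∑ i, (v t x i - u t x i) ^ 2 = 0 := by
    rw [hxy]
    exact hcube hy
  rw [Finset.sum_eq_zero_iff_of_nonneg (fun i _ => sq_nonneg _)] at hz
  ext i
  have := hz i (Finset.mem_univ i)
  have h2 : v t x i - u t x i = 0 := by
    exact pow_eq_zero_iff (two_ne_zero) |>.mp this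
  linarith

/-- A function all of whose coordinate derivatives vanish is constant. -/
theorem const_of_PD_zero {g : R3 → ℝ} (h : ∀ j, PD j g (fun _ => 0)) (x : R3) : g x = g 0 := by
  have key : ∀ (j : Fin 3) (y : R3) (s : ℝ), g (Function.update y j s) = g y := by
    intro j y s
    have hd : ∀ r, HasDerivAt (fun r => g (Function.update y j r)) 0 r := by
      intro r
      have := h j (Function.update y j r)
      simpa using this
    have hc := is_const_of_deriv_eq_zero (f := fun r => g (Function.update y j r))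
      (fun r => (hd r).differentiableAt) (fun r => (hd r).deriv) s (y j)
    simpa using hc
  have e : (0 : R3) = Function.update (Function.update (Function.update x 0 0) 1 0) 2 0 := by
    ext i
    fin_cases i <;> simp
  rw [e, key, key, key]

/-- Uniqueness of classical solutions (velocity and pressure). -/
theorem classical_unique_of_nonneg {ν : ℝ} (hν : 0 ≤ ν) {f : ℝ → R3 → R3} {T : ℝ} (hT : 0 < T)
    {u v : ℝ → R3 → R3} {p q : ℝ → R3 → ℝ}
    (hu : IsClassicalSol ν f T u p) (hv : IsClassicalSol ν f T v q) :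
    ∀ t ∈ Icc (0 : ℝ) T, ∀ x, v t x = u t x ∧ q t x = p t x := by
  have hvu := velocity_unique hν hu hv
  obtain ⟨ut, du, ddu, dp, cu, cut, cdu, cddu, cp, cdp, u0, Hu⟩ := hu
  obtain ⟨vt, dv, ddv, dq, cv, cvt, cdv, cddv, cq, cdq, v0, Hv⟩ := hv
  intro t ht x
  refine ⟨hvu t ht x, ?_⟩
  obtain ⟨-, -, mp, hU⟩ := Hu t ht
  obtain ⟨-, -, mq, hV⟩ := Hv t ht
  have hfun : v t = u t := funext (hvu t ht)
  have h1 : ∀ y, vt t y = ut t y := by
    intro y
    have a1 := (hV y).1
    have a2 := (hU y).1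
    have a3 : HasDerivWithinAt (fun s => u s y) (vt t y) (Icc 0 T) t :=
      a1.congr (fun s hs => (hvu s hs y).symm) (hvu t ht y).symm
    exact (uniqueDiffOn_Icc hT t ht).eq_deriv _ a3 a2
  have h2 : ∀ j, dv j t = du j t := by
    intro j
    funext y
    have a1 := (hV y).2.1 j
    have a2 := (hU y).2.1 j
    rw [hfun] at a1
    exact a1.unique a2
  have h3 : ∀ j k y, ddv j k t y = ddu j k t y := by
    intro j k y
    have a1 := (hV y).2.2.1 j k
    have a2 := (hU y).2.2.1 j k
    rw [h2 j] at a1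
    exact a1.unique a2
  have h4 : ∀ i y, dq i t y = dp i t y := by
    intro i y
    have a1 := (hV y).2.2.2.2.1 i
    have a2 := (hU y).2.2.2.2.1 i
    simp only [h1, h2, h3, hfun] at a1
    linarith
  have h5 : ∀ j, PD j (fun y => q t y - p t y) (fun _ => 0) := by
    intro j y
    have a1 := (hV y).2.2.2.1 j
    have a2 := (hU y).2.2.2.1 j
    have := a1.fun_sub a2
    rw [h4, sub_self] at this
    exact this
  have h6 : ∀ y, q t y - p t y = q t 0 - p t 0 := fun y => const_of_PD_zero h5 y
  have cq' : Continuous (q t) := cont_slice cq ht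
  have cp' : Continuous (p t) := cont_slice cp ht
  have h7 : ∫ y in Icc (0 : R3) 1, (q t y - p t y) = 0 := by
    rw [integral_sub cq'.integrableOn_Icc cp'.integrableOn_Icc, mp, mq, sub_self]
  simp only [h6] at h7
  rw [setIntegral_const] at h7
  have hvol : (volume.real (Icc (0 : R3) 1)) = 1 := by
    simp [Measure.real, Real.volume_Icc_pi]
  rw [hvol, one_smul] at h7
  have := h6 x
  linarith

/-- Uniqueness of classical solutions, in the form used by the main theorem. -/
theorem classical_unique {ν : ℝ} (hν : 0 < ν) {f : ℝ → R3 → R3} {T : ℝ} (hT : 0 < T)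
    {u v : ℝ → R3 → R3} {p q : ℝ → R3 → ℝ}
    (h1 : IsClassicalSol ν f T u p) (h2 : IsClassicalSol ν f T v q) :
    ∀ t ∈ Set.Icc (0 : ℝ) T, ∀ x, v t x = u t x ∧ q t x = p t x :=
  classical_unique_of_nonneg hν.le hT h1 h2

end Vale.Agent.Lib.P113
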