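import Vale.Agent.Lib.P113_helper29.MixedDefs
import Vale.Agent.Lib.P113_helper7.Basic1D
import Vale.Agent.Lib.P113.PRReal

/-!
The two halves of every mixed derivative of the force are approximable primitive recursively,
uniformly in the flow data, the multi-index, the component and the rational point.
-/

namespace Vale.Agent.Lib.P113

variable {α β : Type*} [Primcodable α] [Primcodable β]

theorem PRReal.ite_eq' [DecidableEq β] {f g : α → β} (hf : Primrec f) (hg : Primrec g)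
    {F G : α → ℝ} (hF : PRReal F) (hG : PRReal G) :
    PRReal (fun a => if f a = g a then F a else G a) := by
  obtain ⟨u, hu, hub⟩ := hF
  obtain ⟨v, hv, hvb⟩ := hG
  refine ⟨fun p => if f p.1 = g p.1 then u p else v p, by fun_prop, fun a n => ?_⟩
  dsimp only
  split_ifs
  · exact hub a n
  · exact hvb a n

/-- fractional part -/
def qfr (r : Q) : Q := qsub r (qfloor r)
@[fun_prop] theorem pr_qfr {f : α → Q} (hf : Primrec f) : Primrec (fun x => qfr (f x)) := by
  unfold qfr; fun_prop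
@[simp] theorem qval_qfr (r : Q) : qval (qfr r) = Int.fract (qval r) := by
  simp only [qfr, qval_qsub, qval_qfloor, Int.self_sub_floor]

/-- the representative modulo one in `[-1/4, 3/4)` -/
def qxi (r : Q) : Q := qsub (qfr (qadd r (qfrac 1 3))) (qfrac 1 3)
@[fun_prop] theorem pr_qxi {f : α → Q} (hf : Primrec f) : Primrec (fun x => qxi (f x)) := by
  unfold qxi; fun_prop
@[simp] theorem qval_qxi (r : Q) : qval (qxi r) = xi (qval r) := by
  simp only [qxi, xi, qval_qsub, qval_qfr, qval_qadd, qval_qfrac]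
  norm_num

/-- the floor, truncated at zero -/
def qfloorNat (r : Q) : ℕ := (r.1 - r.2.1) / (r.2.2 + 1)
@[fun_prop] theorem pr_qfloorNat {f : α → Q} (hf : Primrec f) :
    Primrec (fun x => qfloorNat (f x)) := by
  unfold qfloorNat; fun_prop

theorem floor_toNat (r : Q) : ⌊qval r⌋.toNat = qfloorNat r := by
  rw [Int.floor_toNat]
  unfold qfloorNat qval
  rcases le_total r.2.1 r.1 with h | h
  · have : ((r.1 : ℝ) - (r.2.1 : ℝ)) / ((r.2.2 : ℝ) + 1)
        = ((r.1 - r.2.1 : ℕ) : ℝ) / ((r.2.2 + 1 : ℕ) : ℝ) := by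
      rw [Nat.cast_sub h]; push_cast; ring
    rw [this, Nat.floor_div_eq_div]
  · have h0 : r.1 - r.2.1 = 0 := by omega
    rw [h0, Nat.zero_div, Nat.floor_eq_zero]
    have h1 : ((r.1 : ℝ) - (r.2.1 : ℝ)) / ((r.2.2 : ℝ) + 1) ≤ 0 := by
      apply div_nonpos_of_nonpos_of_nonneg
      · have : (r.1 : ℝ) ≤ r.2.1 := by exact_mod_cast h
        linarith
      · positivity
    linarith

theorem floor_neg_iff (r : Q) : ⌊qval r⌋ < 0 ↔ r.1 < r.2.1 := by
  rw [Int.floor_lt]
  unfold qval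
  push_cast
  rw [div_lt_iff₀ (by positivity), zero_mul, sub_neg]
  exact_mod_cast Iff.rfl

@[fun_prop] theorem pr_pm {f : α → ℕ} (hf : Primrec f) : Primrec (fun x => pm (f x)) := by
  unfold pm; fun_prop
@[fun_prop] theorem pr_pk {f : α → ℕ} (hf : Primrec f) : Primrec (fun x => pk (f x)) := by
  unfold pk; fun_prop
@[fun_prop] theorem pr_pl {f : α → ℕ} (hf : Primrec f) : Primrec (fun x => pl (f x)) := by
  unfold pl; fun_prop
@[fun_prop] theorem pr_sel {f : α → ℕ × ℕ × ℕ} {g : α → Fin 3} (hf : Primrec f) (hg : Primrec g) :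
    Primrec (fun x => sel (f x) (g x)) := by
  unfold sel; fun_prop

/-- entry of a triple of rationals -/
def selQ (b : Q × Q × Q) (j : Fin 3) : Q := if j = 0 then b.1 else if j = 1 then b.2.1 else b.2.2
@[fun_prop] theorem pr_selQ {f : α → Q × Q × Q} {g : α → Fin 3} (hf : Primrec f)
    (hg : Primrec g) : Primrec (fun x => selQ (f x) (g x)) := by
  unfold selQ; fun_prop
theorem qpt_apply (x : Q × Q × Q) (j : Fin 3) : qpt x j = qval (selQ x j) := by
  fin_cases j <;> simp [qpt, selQ]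

/-- the shear active during `[m, m+1]` -/
def shAtN (D : FlowData) (m : ℕ) : Shear := D.2.getD ((m - 1) % D.2.length) (0, [])
@[fun_prop] theorem pr_shAtN {f : α → FlowData} {g : α → ℕ} (hf : Primrec f) (hg : Primrec g) :
    Primrec (fun x => shAtN (f x) (g x)) := by
  unfold shAtN; fun_prop
theorem shAt_floor (D : FlowData) (t : Q) : shAt D ⌊qval t⌋ = shAtN D (qfloorNat t) := by
  unfold shAt shAtN
  rw [floor_toNat]

section
variable (hsg : PRReal (fun a : ℕ × Q => iteratedDeriv a.1 Real.smoothTransition (qval a.2)))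
include hsg

theorem prreal_th : PRReal (fun a : ℕ × Q => iteratedDeriv a.1 th (qval a.2)) := by
  have h1 : PRReal (fun a : ℕ × Q => qval (qpow (qnat 2) (a.1 + 1))) := PRReal.ofQ (by fun_prop)
  have h2 := hsg.comp (h := fun a : ℕ × Q => (a.1 + 1, qsub (qmul (qnat 2) a.2) (qfrac 1 1)))
    (by fun_prop)
  exact (h1.mul h2).of_eq fun a => by
    rw [iteratedDeriv_th]
    simp only [qval_qpow, qval_qnat, qval_qsub, qval_qmul, qval_qfrac]
    norm_num

theorem prreal_th' : PRReal (fun a : ℕ × Q => iteratedDeriv a.1 th' (qval a.2)) := by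
  have h1 : PRReal (fun a : ℕ × Q => qval (qpow (qnat 2) (a.1 + 2))) := PRReal.ofQ (by fun_prop)
  have h2 := hsg.comp (h := fun a : ℕ × Q => (a.1 + 2, qsub (qmul (qnat 2) a.2) (qfrac 1 1)))
    (by fun_prop)
  exact (h1.mul h2).of_eq fun a => by
    rw [iteratedDeriv_th']
    simp only [qval_qpow, qval_qnat, qval_qsub, qval_qmul, qval_qfrac]
    norm_num

theorem prreal_bt : PRReal (fun a : ℕ × Q => iteratedDeriv a.1 bt (qval a.2)) := by
  have h1 : PRReal (fun a : ℕ × Q => qval (qpow (qnat 8) a.1)) := PRReal.ofQ (by fun_prop)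
  have h2 := hsg.comp (h := fun a : ℕ × Q => (a.1, qadd (qmul (qnat 8) a.2) (qnat 1)))
    (by fun_prop)
  have h3 := hsg.comp (h := fun a : ℕ × Q => (a.1, qsub (qmul (qnat 8) a.2) (qnat 2)))
    (by fun_prop)
  exact (h1.mul (h2.sub h3)).of_eq fun a => by
    rw [iteratedDeriv_bt]
    simp only [qval_qpow, qval_qnat, qval_qsub, qval_qadd, qval_qmul]
    norm_num

/-- argument `N * xi y - i` -/
def qarg (N i : ℕ) (y : Q) : Q := qsub (qmul (qnat N) (qxi y)) (qnat i)
omit hsg in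
@[fun_prop] theorem pr_qarg {f g : α → ℕ} {h : α → Q} (hf : Primrec f) (hg : Primrec g)
    (hh : Primrec h) : Primrec (fun x => qarg (f x) (g x) (h x)) := by
  unfold qarg; fun_prop
omit hsg in
@[simp] theorem qval_qarg (N i : ℕ) (y : Q) : qval (qarg N i y) = N * xi (qval y) - i := by
  simp [qarg]

theorem prreal_bump0 :
    PRReal (fun a : ℕ × ℕ × ℕ × Q => iteratedDeriv a.2.2.1 (bump0 a.1 a.2.1) (qval a.2.2.2)) := by
  have h1 : PRReal (fun a : ℕ × ℕ × ℕ × Q => qval (qpow (qnat a.1) a.2.2.1)) :=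
    PRReal.ofQ (by fun_prop)
  have h2 := (prreal_bt hsg).comp
    (h := fun a : ℕ × ℕ × ℕ × Q => (a.2.2.1, qarg a.1 a.2.1 a.2.2.2)) (by fun_prop)
  exact (PRReal.ite_lt (f := fun a : ℕ × ℕ × ℕ × Q => 4 * a.2.1) (g := fun a => a.1)
    (by fun_prop) (by fun_prop) (h1.mul h2) PRReal.zero).of_eq fun a => by
    rw [iteratedDeriv_bump0]
    simp only [qval_qpow, qval_qnat, qval_qarg]

theorem prreal_bump1 :
    PRReal (fun a : ℕ × ℕ × ℕ × Q => iteratedDeriv a.2.2.1 (bump1 a.1 a.2.1) (qval a.2.2.2)) := by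
  have h0 : PRReal (fun a : ℕ × ℕ × ℕ × Q => qval (qxi a.2.2.2)) := PRReal.ofQ (by fun_prop)
  have h1 : PRReal (fun a : ℕ × ℕ × ℕ × Q => qval (qpow (qnat a.1) a.2.2.1)) :=
    PRReal.ofQ (by fun_prop)
  have h2 := (prreal_bt hsg).comp
    (h := fun a : ℕ × ℕ × ℕ × Q => (a.2.2.1, qarg a.1 a.2.1 a.2.2.2)) (by fun_prop)
  have h3 : PRReal (fun a : ℕ × ℕ × ℕ × Q => qval (qnat a.2.2.1)) := PRReal.ofQ (by fun_prop)
  have h4 : PRReal (fun a : ℕ × ℕ × ℕ × Q => qval (qpow (qnat a.1) (a.2.2.1 - 1))) :=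
    PRReal.ofQ (by fun_prop)
  have h5 := (prreal_bt hsg).comp
    (h := fun a : ℕ × ℕ × ℕ × Q => (a.2.2.1 - 1, qarg a.1 a.2.1 a.2.2.2)) (by fun_prop)
  exact (PRReal.ite_lt (f := fun a : ℕ × ℕ × ℕ × Q => 4 * a.2.1) (g := fun a => a.1)
    (by fun_prop) (by fun_prop) ((h0.mul (h1.mul h2)).add (h3.mul (h4.mul h5)))
    PRReal.zero).of_eq fun a => by
    rw [iteratedDeriv_bump1]
    simp only [qval_qpow, qval_qnat, qval_qarg, qval_qxi]

theorem prreal_pieceD :
    PRReal (fun a : Piece × ℕ × ℕ × Q × Q => pieceD a.1 a.2.1 a.2.2.1 (qval a.2.2.2.1)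
      (qval a.2.2.2.2)) := by
  have h1 : PRReal (fun a : Piece × ℕ × ℕ × Q × Q => qval a.1.2.2.2.2.1) :=
    PRReal.ofQ (by fun_prop)
  have h2 : PRReal (fun a : Piece × ℕ × ℕ × Q × Q => qval a.1.2.2.2.2.2) :=
    PRReal.ofQ (by fun_prop)
  have h3 := (prreal_bump1 hsg).comp
    (h := fun a : Piece × ℕ × ℕ × Q × Q => (a.1.1, a.1.2.1, a.2.1, a.2.2.2.1)) (by fun_prop)
  have h4 := (prreal_bump0 hsg).comp
    (h := fun a : Piece × ℕ × ℕ × Q × Q => (a.1.1, a.1.2.1, a.2.1, a.2.2.2.1)) (by fun_prop)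
  have h5 := (prreal_bump0 hsg).comp
    (h := fun a : Piece × ℕ × ℕ × Q × Q => (a.1.2.2.1, a.1.2.2.2.1, a.2.2.1, a.2.2.2.2))
    (by fun_prop)
  exact (((h1.mul h3).add (h2.mul h4)).mul h5).of_eq fun a => rfl

theorem prreal_shearD :
    PRReal (fun a : List Piece × ℕ × ℕ × Q × Q => shearD a.1 a.2.1 a.2.2.1 (qval a.2.2.2.1)
      (qval a.2.2.2.2)) := by
  have h := (prreal_pieceD hsg).comp
    (h := fun p : (List Piece × ℕ × ℕ × Q × Q) × Piece => (p.2, p.1.2)) (by fun_prop)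
  exact (PRReal.list_sum (L := fun a : List Piece × ℕ × ℕ × Q × Q => a.1) (by fun_prop) h).of_eq
    fun a => rfl

omit hsg in
theorem floor_eq_zero_iff (t : Q) (h : ¬ t.1 < t.2.1) : ⌊qval t⌋ = 0 ↔ qfloorNat t = 0 := by
  rw [← floor_toNat, Int.toNat_eq_zero]
  have := (floor_neg_iff t).not.2 h
  omega

omit hsg in
theorem floor_nonpos_iff (t : Q) : ⌊qval t⌋ ≤ 0 ↔ qfloorNat t = 0 := by
  rw [← floor_toNat, Int.toNat_eq_zero]

omit hsg in
theorem profD_floor (D : FlowData) (t : Q) (i : Fin 3) (j k : ℕ) (y z : ℝ) :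
    profD D ⌊qval t⌋ i j k y z = if t.1 < t.2.1 then 0 else if qfloorNat t = 0 then
        (if j + k = 0 then qval (selQ D.1 i) else 0)
      else if i = pm (shAtN D (qfloorNat t)).1 then shearD (shAtN D (qfloorNat t)).2 j k y z
      else 0 := by
  unfold profD
  rw [shAt_floor]
  simp only [floor_neg_iff]
  by_cases h : t.1 < t.2.1
  · simp only [h, if_true]
  · simp only [h, if_false, floor_eq_zero_iff t h, ← qpt_apply, Nat.add_eq_zero_iff]
    rfl

omit hsg in
theorem profLapD_floor (D : FlowData) (t : Q) (i : Fin 3) (j k : ℕ) (y z : ℝ) :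
    profLapD D ⌊qval t⌋ i j k y z = if qfloorNat t = 0 then 0
      else if i = pm (shAtN D (qfloorNat t)).1 then
        shearD (shAtN D (qfloorNat t)).2 (j + 2) k y z + shearD (shAtN D (qfloorNat t)).2 j (k + 2) y z
      else 0 := by
  unfold profLapD
  rw [shAt_floor]
  simp only [floor_nonpos_iff]

/-- arguments of a profile -/
abbrev PArg : Type := FlowData × Q × Fin 3 × ℕ × ℕ × Q × Q

theorem prreal_profD : PRReal (fun a : PArg =>
    profD a.1 ⌊qval a.2.1⌋ a.2.2.1 a.2.2.2.1 a.2.2.2.2.1 (qval a.2.2.2.2.2.1)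
      (qval a.2.2.2.2.2.2)) := by
  have h1 : PRReal (fun a : PArg => qval (selQ a.1.1 a.2.2.1)) := PRReal.ofQ (by fun_prop)
  have h2 := (prreal_shearD hsg).comp (h := fun a : PArg =>
    ((shAtN a.1 (qfloorNat a.2.1)).2, a.2.2.2.1, a.2.2.2.2.1, a.2.2.2.2.2.1, a.2.2.2.2.2.2))
    (by fun_prop)
  exact (PRReal.ite_lt (f := fun a : PArg => a.2.1.1) (g := fun a => a.2.1.2.1)
    (by fun_prop) (by fun_prop) PRReal.zero
    (PRReal.ite_eq (f := fun a : PArg => qfloorNat a.2.1) (g := fun _ => 0)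
      (by fun_prop) (by fun_prop)
      (PRReal.ite_eq (f := fun a : PArg => a.2.2.2.1 + a.2.2.2.2.1) (g := fun _ => 0)
        (by fun_prop) (by fun_prop) h1 PRReal.zero)
      (PRReal.ite_eq' (f := fun a : PArg => a.2.2.1)
        (g := fun a => pm (shAtN a.1 (qfloorNat a.2.1)).1)
        (by fun_prop) (by fun_prop) h2 PRReal.zero))).of_eq fun a => by
    rw [profD_floor]

theorem prreal_profLapD : PRReal (fun a : PArg =>
    profLapD a.1 ⌊qval a.2.1⌋ a.2.2.1 a.2.2.2.1 a.2.2.2.2.1 (qval a.2.2.2.2.2.1)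
      (qval a.2.2.2.2.2.2)) := by
  have h2 := (prreal_shearD hsg).comp (h := fun a : PArg =>
    ((shAtN a.1 (qfloorNat a.2.1)).2, a.2.2.2.1 + 2, a.2.2.2.2.1, a.2.2.2.2.2.1, a.2.2.2.2.2.2))
    (by fun_prop)
  have h3 := (prreal_shearD hsg).comp (h := fun a : PArg =>
    ((shAtN a.1 (qfloorNat a.2.1)).2, a.2.2.2.1, a.2.2.2.2.1 + 2, a.2.2.2.2.2.1, a.2.2.2.2.2.2))
    (by fun_prop)
  exact (PRReal.ite_eq (f := fun a : PArg => qfloorNat a.2.1) (g := fun _ => 0)
      (by fun_prop) (by fun_prop) PRReal.zero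
      (PRReal.ite_eq' (f := fun a : PArg => a.2.2.1)
        (g := fun a => pm (shAtN a.1 (qfloorNat a.2.1)).1)
        (by fun_prop) (by fun_prop) (h2.add h3) PRReal.zero)).of_eq fun a => by
    rw [profLapD_floor]

/-- the ordering code of the active shear -/
def cAt (p : FlowData × Inp) : ℕ := (shAtN p.1 (qfloorNat p.2.2.2.1)).1
omit hsg in
@[fun_prop] theorem pr_cAt {f : α → FlowData × Inp} (hf : Primrec f) :
    Primrec (fun x => cAt (f x)) := by
  unfold cAt; fun_prop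

/-- the profile arguments of a query -/
def toPArg (p : FlowData × Inp) : PArg :=
  (p.1, p.2.2.2.1, p.2.2.1, sel p.2.1.2 (pk (cAt p)), sel p.2.1.2 (pl (cAt p)),
    selQ p.2.2.2.2 (pk (cAt p)), selQ p.2.2.2.2 (pl (cAt p)))
omit hsg in
@[fun_prop] theorem pr_toPArg {f : α → FlowData × Inp} (hf : Primrec f) :
    Primrec (fun x => toPArg (f x)) := by
  unfold toPArg; fun_prop

theorem prreal_halfA : PRReal halfA := by
  have h1 := (prreal_th' hsg).comp (h := fun p : FlowData × Inp => (p.2.1.1, qfr p.2.2.2.1))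
    (by fun_prop)
  have h2 := (prreal_profD hsg).comp (h := toPArg) (by fun_prop)
  exact (h1.mul (PRReal.ite_eq (f := fun p : FlowData × Inp => sel p.2.1.2 (pm (cAt p)))
    (g := fun _ => 0) (by fun_prop) (by fun_prop) h2 PRReal.zero)).of_eq fun p => by
    simp only [halfA, phaseD, shAt_floor, qval_qfr, qpt_apply, toPArg, cAt]
    congr 1

theorem prreal_halfB : PRReal halfB := by
  have h1 := (prreal_th hsg).comp (h := fun p : FlowData × Inp => (p.2.1.1, qfr p.2.2.2.1))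
    (by fun_prop)
  have h2 := (prreal_profLapD hsg).comp (h := toPArg) (by fun_prop)
  exact (h1.mul (PRReal.ite_eq (f := fun p : FlowData × Inp => sel p.2.1.2 (pm (cAt p)))
    (g := fun _ => 0) (by fun_prop) (by fun_prop) h2 PRReal.zero)).of_eq fun p => by
    simp only [halfB, phaseLapD, shAt_floor, qval_qfr, qpt_apply, toPArg, cAt]
    congr 1

end

end Vale.Agent.Lib.P113
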