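import Vale.Agent.Lib.P113_helper29.MixedDeriv
import Vale.Agent.Lib.P113_helper29.ForcePR
import Vale.Agent.Lib.P113_helper20.Compile

/-!
A computable map from flow data to programs computing all mixed derivatives of the force.
-/

namespace Vale.Agent.Lib.P113

theorem exists_force_compiler_of
    (hsg : PRReal (fun a : ℕ × Q => iteratedDeriv a.1 Real.smoothTransition (qval a.2)))
    {ν : ℝ} (hc : IsComputableReal ν) :
    ∃ comp : FlowData → Nat.Partrec.Code, Computable comp ∧
      ∀ D : FlowData, ComputesForce (comp D) (force ν D) := by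
  obtain ⟨comp, h1, h2⟩ := exists_compiler hc (prreal_halfA hsg) (prreal_halfB hsg)
  refine ⟨comp, h1, fun D a i t x e => ?_⟩
  obtain ⟨r, hr1, hr2⟩ := h2 D a i t x e
  refine ⟨r, hr1, ?_⟩
  rw [mixedDeriv_force]
  exact hr2

end Vale.Agent.Lib.P113
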