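import Vale.Agent.Lib.P113.Geo5
import Vale.Agent.Lib.P113.Comp1
import Vale.Agent.Lib.P113_helper20.SigmaDeriv
import Vale.Agent.Lib.P113_helper25.ExpApprox
import Vale.Agent.Lib.P113_helper28.Flow12
import Vale.Agent.Lib.P113_helper29.Uniq
import Vale.Agent.Lib.P113_helper29.ForceCompiler

/-!
Assembly of all the parts.
-/

namespace Vale.Agent.Lib.P113
open Set
open scoped ContDiff

theorem exists_force_compiler {ν : ℝ} (hc : IsComputableReal ν) :
    ∃ comp : FlowData → Nat.Partrec.Code, Computable comp ∧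
      ∀ D : FlowData, ComputesForce (comp D) (force ν D) :=
  exists_force_compiler_of (prreal_iteratedDeriv_of_sg prreal_sg) hc

theorem slab_isOpen : IsOpen slab := by
  have h : slab = ⋃ n : ℤ, {x : R3 | (n : ℝ) + 9 / 16 < x 2 ∧ x 2 < (n : ℝ) + 11 / 16} := by
    ext x; simp [slab]
  rw [h]
  refine isOpen_iUnion fun n => ?_
  exact (isOpen_lt continuous_const (continuous_apply 2)).inter
    (isOpen_lt (continuous_apply 2) continuous_const)

theorem slab_per (x : R3) (i : Fin 3) : x + Pi.single i 1 ∈ slab ↔ x ∈ slab := by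
  by_cases hi : i = 2
  · subst hi
    constructor
    · rintro ⟨n, h1, h2⟩
      refine ⟨n - 1, ?_, ?_⟩
      · simp only [Pi.add_apply, Pi.single_eq_same] at h1
        push_cast; linarith
      · simp only [Pi.add_apply, Pi.single_eq_same] at h2
        push_cast; linarith
    · rintro ⟨n, h1, h2⟩
      refine ⟨n + 1, ?_, ?_⟩
      · simp only [Pi.add_apply, Pi.single_eq_same]
        push_cast; linarith
      · simp only [Pi.add_apply, Pi.single_eq_same]
        push_cast; linarith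
  · have h : (x + (Pi.single i 1 : R3)) 2 = x 2 := by
      simp only [Pi.add_apply]
      rw [Pi.single_eq_of_ne (Ne.symm hi), add_zero]
    unfold slab
    show (∃ n : ℤ, (n : ℝ) + 9 / 16 < (x + (Pi.single i 1 : R3)) 2
      ∧ (x + (Pi.single i 1 : R3)) 2 < (n : ℝ) + 11 / 16) ↔ _
    rw [h]
    rfl

theorem main_theorem (ν : ℝ) (hν : 0 < ν) (hc : IsComputableReal ν) :
    ∃ (a : R3) (O : Set R3) (T0 : ℝ) (F : Machine → List ℕ → ℝ → R3 → R3)
      (compiler : Machine → List ℕ → Nat.Partrec.Code),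
      IsOpen O ∧ (∀ (x : R3) (i : Fin 3), x + Pi.single i 1 ∈ O ↔ x ∈ O) ∧
      O = {x : R3 | ∃ n : ℤ, (n : ℝ) + 9 / 16 < x 2 ∧ x 2 < (n : ℝ) + 11 / 16} ∧
      Computable₂ compiler ∧
      ∀ M : Machine, M.Valid →
        (∃ P : ℝ, 0 < P ∧ ∀ w : List ℕ, (∀ s ∈ w, s ≤ M.1) →
          ∀ t, T0 ≤ t → ∀ x, F M w (t + P) x = F M w t x) ∧
        (∀ w w' : List ℕ, (∀ s ∈ w, s ≤ M.1) → (∀ s ∈ w', s ≤ M.1) →
          ∀ t, T0 ≤ t → ∀ x, F M w t x = F M w' t x) ∧
        ∀ w : List ℕ, (∀ s ∈ w, s ≤ M.1) →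
          IsSmoothForce (F M w) ∧ ComputesForce (compiler M w) (F M w) ∧
          ∃ (u : ℝ → R3 → R3) (p : ℝ → R3 → ℝ),
            ContDiff ℝ ∞ (fun z : ℝ × R3 => u z.1 z.2) ∧
            ContDiff ℝ ∞ (fun z : ℝ × R3 => p z.1 z.2) ∧
            (∀ T, 0 < T → IsClassicalSol ν (F M w) T u p) ∧
            (∀ T, 0 < T → ∀ v q, IsClassicalSol ν (F M w) T v q →
              ∀ t ∈ Icc (0 : ℝ) T, ∀ x, v t x = u t x ∧ q t x = p t x) ∧
            (∃ X, IsTrajectory u a X) ∧
            ∀ X, IsTrajectory u a X → ((∃ t, 0 ≤ t ∧ X t ∈ O) ↔ M.HaltsOn w) := by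
  obtain ⟨comp, hcomp, hforce⟩ := exists_force_compiler hc
  refine ⟨0, slab, 1, fun M w => force ν (flowData M w), fun M w => comp (flowData M w),
    slab_isOpen, slab_per, rfl, ?_, ?_⟩
  · exact hcomp.comp primrec_flowData.to_comp
  intro M hM
  refine ⟨⟨10, by norm_num, ?_⟩, ?_, ?_⟩
  · intro w _ t ht x
    have h := force_time_periodic ν (flowData M w) t ht x
    have h10 : (((flowData M w).2.length : ℕ) : ℝ) = 10 := by
      simp [flowData, shears]
    rw [h10] at h
    exact h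
  · intro w w' _ _ t ht x
    exact force_indep ν _ _ (shears M) t ht x
  · intro w hw
    refine ⟨⟨force_contDiff ν _, force_per ν _⟩, hforce _, vel (flowData M w), fun _ _ => 0,
      vel_contDiff _, contDiff_const, fun T _ => vel_classical ν _ T, ?_,
      exists_trajectory _ _, fun X hX => hits_iff M hM w hw X hX⟩
    intro T hT v q hv
    exact classical_unique hν hT (vel_classical ν _ T) hv

end Vale.Agent.Lib.P113
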