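import Vale.Agent.Lib.P113_helper29.PD

/-!
The energy inequality at a fixed time for the difference of two classical solutions.
-/

namespace Vale.Agent.Lib.P113

open Set MeasureTheory

theorem PD.sum {j : Fin 3} {ι : Type} (s : Finset ι) {G G' : ι → R3 → ℝ}
    (h : ∀ i ∈ s, PD j (G i) (G' i)) :
    PD j (fun x => ∑ i ∈ s, G i x) (fun x => ∑ i ∈ s, G' i x) := by
  intro x
  exact HasDerivAt.fun_sum (fun i hi => h i hi x)

theorem Per.sum {ι : Type} (s : Finset ι) {G : ι → R3 → ℝ} (h : ∀ i ∈ s, Per (G i)) :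
    Per (fun x => ∑ i ∈ s, G i x) := by
  intro x k
  exact Finset.sum_congr rfl (fun i hi => h i hi x k)

/-- All the data of a classical solution at a fixed time. -/
structure Snap (ν : ℝ) (f : R3 → R3) (u ut : R3 → R3) (du ddu : Fin 3 → R3 → R3)
    (p : R3 → ℝ) (dp : Fin 3 → R3 → ℝ) : Prop where
  cu : Continuous u
  cut : Continuous ut
  cdu : ∀ j, Continuous (du j)
  cddu : ∀ j, Continuous (ddu j)
  cp : Continuous p
  cdp : ∀ j, Continuous (dp j)
  peru : Per u
  perp : Per p
  pdu : ∀ j i, PD j (fun x => u x i) (fun x => du j x i)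
  pddu : ∀ j i, PD j (fun x => du j x i) (fun x => ddu j x i)
  pdp : ∀ j, PD j p (dp j)
  eq : ∀ x i, ut x i + ∑ j, u x j * du j x i = - dp i x + ν * ∑ j, ddu j x i + f x i
  div : ∀ x, ∑ j, du j x j = 0

theorem energy_ineq {ν M : ℝ} (hν : 0 ≤ ν) {f u ut v vt : R3 → R3}
    {du ddu dv ddv : Fin 3 → R3 → R3} {p q : R3 → ℝ} {dp dq : Fin 3 → R3 → ℝ}
    (S1 : Snap ν f u ut du ddu p dp) (S2 : Snap ν f v vt dv ddv q dq)
    (hM : ∀ x ∈ Icc (0 : R3) 1, ∑ j, ∑ i, |du j x i| ≤ M) :
    ∫ x in Icc (0 : R3) 1, ∑ i, 2 * (v x i - u x i) * (vt x i - ut x i)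
      ≤ 2 * M * ∫ x in Icc (0 : R3) 1, ∑ i, (v x i - u x i) ^ 2 := by
  have cu := S1.cu
  have cut := S1.cut
  have cdu := S1.cdu
  have cddu := S1.cddu
  have cp := S1.cp
  have cdp := S1.cdp
  have cv := S2.cu
  have cvt := S2.cut
  have cdv := S2.cdu
  have cddv := S2.cddu
  have cq := S2.cp
  have cdq := S2.cdp
  -- the difference and its derivatives
  have pw : ∀ j i, PD j (fun x => v x i - u x i) (fun x => dv j x i - du j x i) :=
    fun j i => (S2.pdu j i).sub (S1.pdu j i)
  have pdw : ∀ j i, PD j (fun x => dv j x i - du j x i) (fun x => ddv j x i - ddu j x i) :=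
    fun j i => (S2.pddu j i).sub (S1.pddu j i)
  have ppi : ∀ j, PD j (fun x => q x - p x) (fun x => dq j x - dp j x) :=
    fun j => (S2.pdp j).sub (S1.pdp j)
  have perw : ∀ i, Per (fun x => v x i - u x i) :=
    fun i => (S2.peru.comp_apply i).sub (S1.peru.comp_apply i)
  have perdw : ∀ j i, Per (fun x => dv j x i - du j x i) := fun j i => (pw j i).per (perw i)
  have perpi : Per (fun x => q x - p x) := S2.perp.sub S1.perp
  -- first divergence term
  have pN : ∀ j, PD j (fun x => ∑ i, (v x i - u x i) * (v x i - u x i))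
      (fun x => ∑ i, ((dv j x i - du j x i) * (v x i - u x i)
        + (v x i - u x i) * (dv j x i - du j x i))) :=
    fun j => PD.sum Finset.univ (fun i _ => (pw j i).mul (pw j i))
  have perN : Per (fun x => ∑ i, (v x i - u x i) * (v x i - u x i)) :=
    Per.sum Finset.univ (fun i _ => (perw i).mul (perw i))
  have I1 : ∀ j, ∫ x in Icc (0 : R3) 1, (dv j x j * (∑ i, (v x i - u x i) * (v x i - u x i))
      + v x j * ∑ i, ((dv j x i - du j x i) * (v x i - u x i)
        + (v x i - u x i) * (dv j x i - du j x i))) = 0 := by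
    intro j
    exact ((S2.pdu j j).mul (pN j)).integral_eq_zero ((S2.peru.comp_apply j).mul perN)
      (by fun_prop)
  have I3 : ∀ i, ∫ x in Icc (0 : R3) 1, ((dv i x i - du i x i) * (q x - p x)
      + (v x i - u x i) * (dq i x - dp i x)) = 0 := by
    intro i
    exact ((pw i i).mul (ppi i)).integral_eq_zero ((perw i).mul perpi) (by fun_prop)
  have I4 : ∀ j i, ∫ x in Icc (0 : R3) 1, ((dv j x i - du j x i) * (dv j x i - du j x i)
      + (v x i - u x i) * (ddv j x i - ddu j x i)) = 0 := by
    intro j i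
    exact ((pw j i).mul (pdw j i)).integral_eq_zero ((perw i).mul (perdw j i)) (by fun_prop)
  -- sums of the divergence terms
  have J1 : ∫ x in Icc (0 : R3) 1, ∑ j, (dv j x j * (∑ i, (v x i - u x i) * (v x i - u x i))
      + v x j * ∑ i, ((dv j x i - du j x i) * (v x i - u x i)
        + (v x i - u x i) * (dv j x i - du j x i))) = 0 := by
    rw [integral_finset_sum]
    · exact Finset.sum_eq_zero (fun j _ => I1 j)
    · intro j _
      exact Continuous.integrableOn_Icc (by fun_prop)
  have J3 : ∫ x in Icc (0 : R3) 1, ∑ i, ((dv i x i - du i x i) * (q x - p x)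
      + (v x i - u x i) * (dq i x - dp i x)) = 0 := by
    rw [integral_finset_sum]
    · exact Finset.sum_eq_zero (fun j _ => I3 j)
    · intro j _
      exact Continuous.integrableOn_Icc (by fun_prop)
  have J4 : ∫ x in Icc (0 : R3) 1, ∑ j, ∑ i, ((dv j x i - du j x i) * (dv j x i - du j x i)
      + (v x i - u x i) * (ddv j x i - ddu j x i)) = 0 := by
    rw [integral_finset_sum]
    · apply Finset.sum_eq_zero
      intro j _
      rw [integral_finset_sum]
      · exact Finset.sum_eq_zero (fun i _ => I4 j i)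
      · intro i _
        exact Continuous.integrableOn_Icc (by fun_prop)
    · intro j _
      exact Continuous.integrableOn_Icc (by fun_prop)
  -- the pointwise bound
  have hpt : ∀ x ∈ Icc (0 : R3) 1, (∑ i, 2 * (v x i - u x i) * (vt x i - ut x i))
      + (∑ j, (dv j x j * (∑ i, (v x i - u x i) * (v x i - u x i))
      + v x j * ∑ i, ((dv j x i - du j x i) * (v x i - u x i)
        + (v x i - u x i) * (dv j x i - du j x i))))
      + 2 * (∑ i, ((dv i x i - du i x i) * (q x - p x)
      + (v x i - u x i) * (dq i x - dp i x)))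
      - 2 * ν * (∑ j, ∑ i, ((dv j x i - du j x i) * (dv j x i - du j x i)
      + (v x i - u x i) * (ddv j x i - ddu j x i)))
      ≤ 2 * M * ∑ i, (v x i - u x i) ^ 2 := by
    intro x hx
    have hid : (∑ i, 2 * (v x i - u x i) * (vt x i - ut x i))
      + (∑ j, (dv j x j * (∑ i, (v x i - u x i) * (v x i - u x i))
      + v x j * ∑ i, ((dv j x i - du j x i) * (v x i - u x i)
        + (v x i - u x i) * (dv j x i - du j x i))))
      + 2 * (∑ i, ((dv i x i - du i x i) * (q x - p x)
      + (v x i - u x i) * (dq i x - dp i x)))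
      - 2 * ν * (∑ j, ∑ i, ((dv j x i - du j x i) * (dv j x i - du j x i)
      + (v x i - u x i) * (ddv j x i - ddu j x i)))
      = 2 * (∑ j, ∑ i, -((v x i - u x i) * (v x j - u x j) * du j x i))
        - 2 * ν * ∑ j, ∑ i, (dv j x i - du j x i) ^ 2 := by
      have Ev0 := S2.eq x 0
      have Ev1 := S2.eq x 1
      have Ev2 := S2.eq x 2
      have Eu0 := S1.eq x 0
      have Eu1 := S1.eq x 1
      have Eu2 := S1.eq x 2
      have Dv := S2.div x
      have Du := S1.div x
      simp only [Fin.sum_univ_three] at Ev0 Ev1 Ev2 Eu0 Eu1 Eu2 Dv Du ⊢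
      linear_combination 2 * (v x 0 - u x 0) * (Ev0 - Eu0) + 2 * (v x 1 - u x 1) * (Ev1 - Eu1)
        + 2 * (v x 2 - u x 2) * (Ev2 - Eu2)
        + ((v x 0 - u x 0) * (v x 0 - u x 0) + (v x 1 - u x 1) * (v x 1 - u x 1)
          + (v x 2 - u x 2) * (v x 2 - u x 2)) * Dv + 2 * (q x - p x) * (Dv - Du)
    rw [hid]
    have hQ : 0 ≤ ∑ j, ∑ i, (dv j x i - du j x i) ^ 2 :=
      Finset.sum_nonneg (fun j _ => Finset.sum_nonneg (fun i _ => sq_nonneg _))
    have hN : ∀ i, (v x i - u x i) ^ 2 ≤ ∑ i, (v x i - u x i) ^ 2 := fun i =>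
      Finset.single_le_sum (f := fun i => (v x i - u x i) ^ 2) (fun k _ => sq_nonneg _)
        (Finset.mem_univ i)
    have hB : ∑ j, ∑ i, -((v x i - u x i) * (v x j - u x j) * du j x i)
        ≤ M * ∑ i, (v x i - u x i) ^ 2 := by
      calc ∑ j, ∑ i, -((v x i - u x i) * (v x j - u x j) * du j x i)
          ≤ ∑ j, ∑ i, |du j x i| * ∑ i, (v x i - u x i) ^ 2 := by
            apply Finset.sum_le_sum
            intro j _
            apply Finset.sum_le_sum
            intro i _
            have h1 : |(v x i - u x i) * (v x j - u x j)| ≤ ∑ i, (v x i - u x i) ^ 2 := by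
              have := hN i
              have := hN j
              rw [abs_le]
              constructor <;> nlinarith [sq_nonneg ((v x i - u x i) + (v x j - u x j)),
                sq_nonneg ((v x i - u x i) - (v x j - u x j))]
            calc -((v x i - u x i) * (v x j - u x j) * du j x i)
                ≤ |(v x i - u x i) * (v x j - u x j) * du j x i| := neg_le_abs _
              _ = |du j x i| * |(v x i - u x i) * (v x j - u x j)| := by
                  rw [abs_mul, mul_comm]
              _ ≤ |du j x i| * ∑ i, (v x i - u x i) ^ 2 :=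
                  mul_le_mul_of_nonneg_left h1 (abs_nonneg _)
        _ = (∑ j, ∑ i, |du j x i|) * ∑ i, (v x i - u x i) ^ 2 := by
            rw [Finset.sum_mul]
            apply Finset.sum_congr rfl
            intro j _
            rw [Finset.sum_mul]
        _ ≤ M * ∑ i, (v x i - u x i) ^ 2 :=
            mul_le_mul_of_nonneg_right (hM x hx) (Finset.sum_nonneg (fun i _ => sq_nonneg _))
    nlinarith [mul_nonneg hν hQ]
  -- integrate
  have hL : IntegrableOn (fun x => ∑ i, 2 * (v x i - u x i) * (vt x i - ut x i))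
      (Icc (0 : R3) 1) := Continuous.integrableOn_Icc (by fun_prop)
  have hT1 : IntegrableOn (fun x => ∑ j, (dv j x j * (∑ i, (v x i - u x i) * (v x i - u x i))
      + v x j * ∑ i, ((dv j x i - du j x i) * (v x i - u x i)
        + (v x i - u x i) * (dv j x i - du j x i)))) (Icc (0 : R3) 1) :=
    Continuous.integrableOn_Icc (by fun_prop)
  have hT3 : IntegrableOn (fun x => 2 * ∑ i, ((dv i x i - du i x i) * (q x - p x)
      + (v x i - u x i) * (dq i x - dp i x))) (Icc (0 : R3) 1) :=
    Continuous.integrableOn_Icc (by fun_prop)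
  have hT4 : IntegrableOn (fun x => 2 * ν * ∑ j, ∑ i, ((dv j x i - du j x i) * (dv j x i - du j x i)
      + (v x i - u x i) * (ddv j x i - ddu j x i))) (Icc (0 : R3) 1) :=
    Continuous.integrableOn_Icc (by fun_prop)
  have hN : IntegrableOn (fun x => 2 * M * ∑ i, (v x i - u x i) ^ 2) (Icc (0 : R3) 1) :=
    Continuous.integrableOn_Icc (by fun_prop)
  have hA1 : IntegrableOn (fun x => (∑ i, 2 * (v x i - u x i) * (vt x i - ut x i))
      + (∑ j, (dv j x j * (∑ i, (v x i - u x i) * (v x i - u x i))
      + v x j * ∑ i, ((dv j x i - du j x i) * (v x i - u x i)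
        + (v x i - u x i) * (dv j x i - du j x i))))) (Icc (0 : R3) 1) := hL.add hT1
  have hA2 : IntegrableOn (fun x => (∑ i, 2 * (v x i - u x i) * (vt x i - ut x i))
      + (∑ j, (dv j x j * (∑ i, (v x i - u x i) * (v x i - u x i))
      + v x j * ∑ i, ((dv j x i - du j x i) * (v x i - u x i)
        + (v x i - u x i) * (dv j x i - du j x i))))
      + 2 * (∑ i, ((dv i x i - du i x i) * (q x - p x)
      + (v x i - u x i) * (dq i x - dp i x)))) (Icc (0 : R3) 1) := hA1.add hT3
  have hA3 : IntegrableOn (fun x => (∑ i, 2 * (v x i - u x i) * (vt x i - ut x i))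
      + (∑ j, (dv j x j * (∑ i, (v x i - u x i) * (v x i - u x i))
      + v x j * ∑ i, ((dv j x i - du j x i) * (v x i - u x i)
        + (v x i - u x i) * (dv j x i - du j x i))))
      + 2 * (∑ i, ((dv i x i - du i x i) * (q x - p x)
      + (v x i - u x i) * (dq i x - dp i x)))
      - 2 * ν * (∑ j, ∑ i, ((dv j x i - du j x i) * (dv j x i - du j x i)
      + (v x i - u x i) * (ddv j x i - ddu j x i)))) (Icc (0 : R3) 1) := hA2.sub hT4
  have hmono := setIntegral_mono_on hA3 hN measurableSet_Icc hpt
  rw [integral_sub hA2 hT4, integral_add hA1 hT3,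
      integral_add hL hT1, integral_const_mul, integral_const_mul, integral_const_mul,
      J1, J3, J4] at hmono
  linarith

end Vale.Agent.Lib.P113
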