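import Vale.Agent.Lib.P113.FlowDefs

/-!
Closed form of all mixed derivatives of the force of a switched shear flow: definitions.
-/

namespace Vale.Agent.Lib.P113

/-- derivative of order `j` in `y` and `k` in `z` of a piece -/
noncomputable def pieceD (P : Piece) (j k : ℕ) (y z : ℝ) : ℝ :=
  (qval P.2.2.2.2.1 * iteratedDeriv j (bump1 P.1 P.2.1) y
      + qval P.2.2.2.2.2 * iteratedDeriv j (bump0 P.1 P.2.1) y)
    * iteratedDeriv k (bump0 P.2.2.1 P.2.2.2.1) z

/-- derivative of order `j` in `y` and `k` in `z` of the profile of a shear -/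
noncomputable def shearD (L : List Piece) (j k : ℕ) (y z : ℝ) : ℝ :=
  (L.map (fun P => pieceD P j k y z)).sum

/-- entry of a spatial multi-index -/
def sel (b : ℕ × ℕ × ℕ) (j : Fin 3) : ℕ := if j = 0 then b.1 else if j = 1 then b.2.1 else b.2.2

/-- the shear active during `[n, n+1]` (for `n ≥ 1`) -/
def shAt (D : FlowData) (n : ℤ) : Shear := D.2.getD ((n.toNat - 1) % D.2.length) (0, [])

/-- derivatives of the profile of the `i`-th component of the `n`-th phase -/
noncomputable def profD (D : FlowData) (n : ℤ) (i : Fin 3) (j k : ℕ) (y z : ℝ) : ℝ :=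
  if n < 0 then 0
  else if n = 0 then
    (if j = 0 ∧ k = 0 then (![qval D.1.1, qval D.1.2.1, qval D.1.2.2] : R3) i else 0)
  else if i = pm (shAt D n).1 then shearD (shAt D n).2 j k y z else 0

/-- derivatives of the profile of the `i`-th component of the Laplacian of the `n`-th phase -/
noncomputable def profLapD (D : FlowData) (n : ℤ) (i : Fin 3) (j k : ℕ) (y z : ℝ) : ℝ :=
  if n ≤ 0 then 0
  else if i = pm (shAt D n).1 then
    shearD (shAt D n).2 (j + 2) k y z + shearD (shAt D n).2 j (k + 2) y z else 0

/-- spatial derivative of multi-index `b` of the `i`-th component of the `n`-th phase -/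
noncomputable def phaseD (D : FlowData) (n : ℤ) (b : ℕ × ℕ × ℕ) (i : Fin 3) (x : R3) : ℝ :=
  if sel b (pm (shAt D n).1) = 0 then
    profD D n i (sel b (pk (shAt D n).1)) (sel b (pl (shAt D n).1))
      (x (pk (shAt D n).1)) (x (pl (shAt D n).1))
  else 0

/-- spatial derivative of multi-index `b` of the `i`-th component of the Laplacian of the
`n`-th phase -/
noncomputable def phaseLapD (D : FlowData) (n : ℤ) (b : ℕ × ℕ × ℕ) (i : Fin 3) (x : R3) : ℝ :=
  if sel b (pm (shAt D n).1) = 0 then
    profLapD D n i (sel b (pk (shAt D n).1)) (sel b (pl (shAt D n).1))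
      (x (pk (shAt D n).1)) (x (pl (shAt D n).1))
  else 0

/-- arguments of a query to the force program, without the accuracy -/
abbrev Inp : Type := (ℕ × ℕ × ℕ × ℕ) × Fin 3 × Q × (Q × Q × Q)

/-- the rational point presented by a triple -/
noncomputable def qpt (x : Q × Q × Q) : R3 := ![qval x.1, qval x.2.1, qval x.2.2]

/-- the inertial half of a derivative of the force at a rational point -/
noncomputable def halfA (p : FlowData × Inp) : ℝ :=
  iteratedDeriv p.2.1.1 th' (Int.fract (qval p.2.2.2.1))
    * phaseD p.1 ⌊qval p.2.2.2.1⌋ p.2.1.2 p.2.2.1 (qpt p.2.2.2.2)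

/-- the viscous half (to be multiplied by the viscosity) -/
noncomputable def halfB (p : FlowData × Inp) : ℝ :=
  iteratedDeriv p.2.1.1 th (Int.fract (qval p.2.2.2.1))
    * phaseLapD p.1 ⌊qval p.2.2.2.1⌋ p.2.1.2 p.2.2.1 (qpt p.2.2.2.2)

end Vale.Agent.Lib.P113
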