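import Vale.Agent.Lib.P113_helper29.MixedDefs
import Vale.Agent.Lib.P113_helper7.Basic1D

/-!
Closed form of all mixed derivatives of the force of a switched shear flow: proofs.
-/

namespace Vale.Agent.Lib.P113
open Set Filter Topology
open scoped ContDiff

theorem hasDerivAt_iteratedDeriv {g : ℝ → ℝ} (hg : ContDiff ℝ ∞ g) (j : ℕ) (y : ℝ) :
    HasDerivAt (iteratedDeriv j g) (iteratedDeriv (j + 1) g y) y := by
  rw [iteratedDeriv_succ]
  have h : Differentiable ℝ (iteratedDeriv j g) :=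
    hg.differentiable_iteratedDeriv j (by exact_mod_cast WithTop.coe_lt_top _)
  exact h.differentiableAt.hasDerivAt

theorem pieceD_hasDerivAt_left (P : Piece) (j k : ℕ) (y z : ℝ) :
    HasDerivAt (fun s => pieceD P j k s z) (pieceD P (j + 1) k y z) y := by
  unfold pieceD
  exact (((hasDerivAt_iteratedDeriv (bump1_contDiff _ _) j y).const_mul _).add
    ((hasDerivAt_iteratedDeriv (bump0_contDiff _ _) j y).const_mul _)).mul_const _

theorem pieceD_hasDerivAt_right (P : Piece) (j k : ℕ) (y z : ℝ) :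
    HasDerivAt (fun s => pieceD P j k y s) (pieceD P j (k + 1) y z) z := by
  unfold pieceD
  exact (hasDerivAt_iteratedDeriv (bump0_contDiff _ _) k z).const_mul _

theorem shearD_hasDerivAt_left (L : List Piece) (j k : ℕ) (y z : ℝ) :
    HasDerivAt (fun s => shearD L j k s z) (shearD L (j + 1) k y z) y := by
  unfold shearD
  induction L with
  | nil => simpa using hasDerivAt_const y (0 : ℝ)
  | cons P L ih =>
    simp only [List.map_cons, List.sum_cons]
    exact (pieceD_hasDerivAt_left P j k y z).add ih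

theorem shearD_hasDerivAt_right (L : List Piece) (j k : ℕ) (y z : ℝ) :
    HasDerivAt (fun s => shearD L j k y s) (shearD L j (k + 1) y z) z := by
  unfold shearD
  induction L with
  | nil => simpa using hasDerivAt_const z (0 : ℝ)
  | cons P L ih =>
    simp only [List.map_cons, List.sum_cons]
    exact (pieceD_hasDerivAt_right P j k y z).add ih

theorem shearFn_eq_shearD (L : List Piece) (y z : ℝ) : shearFn L y z = shearD L 0 0 y z := by
  unfold shearFn shearD pieceFn pieceD
  simp only [iteratedDeriv_zero]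

theorem shearLap_eq_shearD (L : List Piece) (y z : ℝ) :
    shearLap L y z = shearD L 2 0 y z + shearD L 0 2 y z := by
  unfold shearLap
  congr 1
  · have h0 : (fun s => shearFn L s z) = fun s => shearD L 0 0 s z :=
      funext fun s => shearFn_eq_shearD L s z
    have h1 : deriv (fun s => shearD L 0 0 s z) = fun s => shearD L 1 0 s z :=
      funext fun s => (shearD_hasDerivAt_left L 0 0 s z).deriv
    rw [h0, iteratedDeriv_succ, iteratedDeriv_one, h1]
    exact (shearD_hasDerivAt_left L 1 0 y z).deriv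
  · have h0 : (fun s => shearFn L y s) = fun s => shearD L 0 0 y s :=
      funext fun s => shearFn_eq_shearD L y s
    have h1 : deriv (fun s => shearD L 0 0 y s) = fun s => shearD L 0 1 y s :=
      funext fun s => (shearD_hasDerivAt_right L 0 0 y s).deriv
    rw [h0, iteratedDeriv_succ, iteratedDeriv_one, h1]
    exact (shearD_hasDerivAt_right L 0 1 y z).deriv

theorem profD_hasDerivAt_left (D : FlowData) (n : ℤ) (i : Fin 3) (j k : ℕ) (y z : ℝ) :
    HasDerivAt (fun s => profD D n i j k s z) (profD D n i (j + 1) k y z) y := by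
  unfold profD
  have hj : ¬ (j + 1 = 0 ∧ k = 0) := by omega
  simp only [hj, if_false]
  split_ifs
  all_goals first
    | exact hasDerivAt_const _ _
    | exact shearD_hasDerivAt_left _ _ _ _ _

theorem profD_hasDerivAt_right (D : FlowData) (n : ℤ) (i : Fin 3) (j k : ℕ) (y z : ℝ) :
    HasDerivAt (fun s => profD D n i j k y s) (profD D n i j (k + 1) y z) z := by
  unfold profD
  have hj : ¬ (j = 0 ∧ k + 1 = 0) := by omega
  simp only [hj, if_false]
  split_ifs
  all_goals first
    | exact hasDerivAt_const _ _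
    | exact shearD_hasDerivAt_right _ _ _ _ _

theorem profLapD_hasDerivAt_left (D : FlowData) (n : ℤ) (i : Fin 3) (j k : ℕ) (y z : ℝ) :
    HasDerivAt (fun s => profLapD D n i j k s z) (profLapD D n i (j + 1) k y z) y := by
  unfold profLapD
  split_ifs with h1 h2
  · exact hasDerivAt_const _ _
  · exact (shearD_hasDerivAt_left _ _ _ _ _).add (shearD_hasDerivAt_left _ _ _ _ _)
  · exact hasDerivAt_const _ _

theorem profLapD_hasDerivAt_right (D : FlowData) (n : ℤ) (i : Fin 3) (j k : ℕ) (y z : ℝ) :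
    HasDerivAt (fun s => profLapD D n i j k y s) (profLapD D n i j (k + 1) y z) z := by
  unfold profLapD
  split_ifs with h1 h2
  · exact hasDerivAt_const _ _
  · exact (shearD_hasDerivAt_right _ _ _ _ _).add (shearD_hasDerivAt_right _ _ _ _ _)
  · exact hasDerivAt_const _ _

/-! ### the generic family -/

/-- a family of fields indexed by a multi-index, built from a family of profiles -/
noncomputable def GG (H : ℝ → ℕ → ℕ → ℝ → ℝ → ℝ) (c : ℝ → ℕ) (e : Fin 3 → ℕ) : ℝ → R3 → ℝ :=
  fun t x => if e (pm (c t)) = 0 then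
    H t (e (pk (c t))) (e (pl (c t))) (x (pk (c t))) (x (pl (c t))) else 0

theorem perm_cases (c : ℕ) (i : Fin 3) : i = pm c ∨ i = pk c ∨ i = pl c := by
  unfold pm pk pl
  split_ifs <;> fin_cases i <;> simp

theorem pm_ne_pk' (c : ℕ) : pm c ≠ pk c := by
  unfold pm pk; split_ifs <;> decide
theorem pm_ne_pl' (c : ℕ) : pm c ≠ pl c := by
  unfold pm pl; split_ifs <;> decide
theorem pk_ne_pl' (c : ℕ) : pk c ≠ pl c := by
  unfold pk pl; split_ifs <;> decide

theorem dX_GG {H : ℝ → ℕ → ℕ → ℝ → ℝ → ℝ} (c : ℝ → ℕ)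
    (hl : ∀ t j k y z, HasDerivAt (fun s => H t j k s z) (H t (j + 1) k y z) y)
    (hr : ∀ t j k y z, HasDerivAt (fun s => H t j k y s) (H t j (k + 1) y z) z)
    (i : Fin 3) (e : Fin 3 → ℕ) :
    dX i (GG H c e) = GG H c (e + Pi.single i 1) := by
  funext t x
  unfold dX GG
  have hmk := pm_ne_pk' (c t)
  have hml := pm_ne_pl' (c t)
  have hkl := pk_ne_pl' (c t)
  rcases perm_cases (c t) i with h | h | h
  · subst h
    simp only [Pi.add_apply, Pi.single_eq_same, Function.update_of_ne hmk.symm,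
      Function.update_of_ne hml.symm]
    simp
  · subst h
    simp only [Pi.add_apply, Pi.single_eq_same, Pi.single_eq_of_ne hmk,
      Pi.single_eq_of_ne hkl.symm, Function.update_self, Function.update_of_ne hkl.symm, add_zero]
    split_ifs
    · exact (hl _ _ _ _ _).deriv
    · simp
  · subst h
    simp only [Pi.add_apply, Pi.single_eq_same, Pi.single_eq_of_ne hml,
      Pi.single_eq_of_ne hkl, Function.update_self, Function.update_of_ne hkl, add_zero]
    split_ifs
    · exact (hr _ _ _ _ _).deriv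
    · simp

theorem dX_iter_GG {H : ℝ → ℕ → ℕ → ℝ → ℝ → ℝ} (c : ℝ → ℕ)
    (hl : ∀ t j k y z, HasDerivAt (fun s => H t j k s z) (H t (j + 1) k y z) y)
    (hr : ∀ t j k y z, HasDerivAt (fun s => H t j k y s) (H t j (k + 1) y z) z)
    (i : Fin 3) (r : ℕ) (e : Fin 3 → ℕ) :
    (dX i)^[r] (GG H c e) = GG H c (e + Pi.single i r) := by
  induction r generalizing e with
  | zero => simp
  | succ r ih =>
    rw [Function.iterate_succ_apply, dX_GG c hl hr, ih]
    congr 1
    funext j
    by_cases hj : j = i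
    · subst hj; simp; ring
    · simp [Pi.single_eq_of_ne hj]

theorem sel_eq (b : ℕ × ℕ × ℕ) :
    ((0 : Fin 3 → ℕ) + Pi.single 2 b.2.2 + Pi.single 1 b.2.1 + Pi.single 0 b.1) = sel b := by
  funext j
  fin_cases j <;> simp [sel]

theorem dX_all_GG {H : ℝ → ℕ → ℕ → ℝ → ℝ → ℝ} (c : ℝ → ℕ)
    (hl : ∀ t j k y z, HasDerivAt (fun s => H t j k s z) (H t (j + 1) k y z) y)
    (hr : ∀ t j k y z, HasDerivAt (fun s => H t j k y s) (H t j (k + 1) y z) z)
    (b : ℕ × ℕ × ℕ) :
    (dX 0)^[b.1] ((dX 1)^[b.2.1] ((dX 2)^[b.2.2] (GG H c 0))) = GG H c (sel b) := by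
  rw [dX_iter_GG c hl hr, dX_iter_GG c hl hr, dX_iter_GG c hl hr, sel_eq]

/-! ### time derivatives -/

theorem switch_hasDerivAt_real {g g' : ℝ → ℝ} (hd : ∀ s, HasDerivAt g (g' s) s)
    (hg : ∀ s, s ≤ 1 / 4 ∨ 3 / 4 ≤ s → g s = 0) (c : ℤ → ℝ) (t : ℝ) :
    HasDerivAt (fun s : ℝ => g (Int.fract s) * c ⌊s⌋) (g' (Int.fract t) * c ⌊t⌋) t := by
  have hsw := switch_eventuallyEq hg c t
  simp only [smul_eq_mul] at hsw
  refine HasDerivAt.congr_of_eventuallyEq ?_ hsw
  have h1 : HasDerivAt (fun s : ℝ => g (s - ⌊t⌋)) (g' (t - ⌊t⌋)) t :=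
    (hd (t - ⌊t⌋)).comp_sub_const t (⌊t⌋ : ℝ)
  exact h1.mul_const (c ⌊t⌋)

theorem dT_iter_switch {g1 g2 : ℕ → ℝ → ℝ}
    (h1 : ∀ r s, HasDerivAt (g1 r) (g1 (r + 1) s) s) (h2 : ∀ r s, HasDerivAt (g2 r) (g2 (r + 1) s) s)
    (z1 : ∀ r s, s ≤ 1 / 4 ∨ 3 / 4 ≤ s → g1 r s = 0)
    (z2 : ∀ r s, s ≤ 1 / 4 ∨ 3 / 4 ≤ s → g2 r s = 0) (ν : ℝ) (c1 c2 : ℤ → R3 → ℝ) (r : ℕ) :
    dT^[r] (fun t x => g1 0 (Int.fract t) * c1 ⌊t⌋ x - ν * (g2 0 (Int.fract t) * c2 ⌊t⌋ x))
      = fun t x => g1 r (Int.fract t) * c1 ⌊t⌋ x - ν * (g2 r (Int.fract t) * c2 ⌊t⌋ x) := by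
  induction r with
  | zero => rfl
  | succ r ih =>
    rw [Function.iterate_succ_apply', ih]
    funext t x
    unfold dT
    exact ((switch_hasDerivAt_real (h1 r) (z1 r) (fun n => c1 n x) t).sub
      ((switch_hasDerivAt_real (h2 r) (z2 r) (fun n => c2 n x) t).const_mul ν)).deriv

theorem iteratedDeriv_th_eq_zero (r : ℕ) (s : ℝ) (h : s ≤ 1 / 4 ∨ 3 / 4 ≤ s) :
    iteratedDeriv r th s = 0 := by
  rw [iteratedDeriv_th, iteratedDeriv_sg_eq_zero (Nat.succ_pos _), mul_zero]
  rcases h with h | h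
  · left; linarith
  · right; linarith

theorem iteratedDeriv_th'_eq_zero (r : ℕ) (s : ℝ) (h : s ≤ 1 / 4 ∨ 3 / 4 ≤ s) :
    iteratedDeriv r th' s = 0 := by
  rw [iteratedDeriv_th', iteratedDeriv_sg_eq_zero (Nat.succ_pos _), mul_zero]
  rcases h with h | h
  · left; linarith
  · right; linarith

/-! ### the force -/

theorem phase_apply (D : FlowData) (n : ℤ) (x : R3) (i : Fin 3) :
    phase D n x i = profD D n i 0 0 (x (pk (shAt D n).1)) (x (pl (shAt D n).1)) := by
  unfold phase profD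
  split_ifs with h1 h2 h3 h4
  · rfl
  · rfl
  · simp at h3
  · subst h4
    simp only [shearField, shAt, Pi.single_eq_same, shearFn_eq_shearD]
  · simp only [shearField]
    exact Pi.single_eq_of_ne h4 _

theorem phaseLap_apply (D : FlowData) (n : ℤ) (x : R3) (i : Fin 3) :
    phaseLap D n x i = profLapD D n i 0 0 (x (pk (shAt D n).1)) (x (pl (shAt D n).1)) := by
  unfold phaseLap profLapD
  split_ifs with h1 h3
  · rfl
  · subst h3
    simp only [shearFieldLap, shAt, Pi.single_eq_same, shearLap_eq_shearD, zero_add]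
  · simp only [shearFieldLap]
    exact Pi.single_eq_of_ne h3 _

/-- closed form of all mixed derivatives of the force -/
theorem mixedDeriv_force (ν : ℝ) (D : FlowData) (a : ℕ × ℕ × ℕ × ℕ) (i : Fin 3) (t : ℝ) (x : R3) :
    mixedDeriv a (fun s y => force ν D s y i) t x
      = iteratedDeriv a.1 th' (Int.fract t) * phaseD D ⌊t⌋ a.2 i x
        - ν * (iteratedDeriv a.1 th (Int.fract t) * phaseLapD D ⌊t⌋ a.2 i x) := by
  set H : ℝ → ℕ → ℕ → ℝ → ℝ → ℝ := fun t j k y z =>
    th' (Int.fract t) * profD D ⌊t⌋ i j k y z - ν * (th (Int.fract t) * profLapD D ⌊t⌋ i j k y z)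
    with hH
  set c : ℝ → ℕ := fun t => (shAt D ⌊t⌋).1 with hc
  have hl : ∀ t j k y z, HasDerivAt (fun s => H t j k s z) (H t (j + 1) k y z) y := by
    intro t j k y z
    exact ((profD_hasDerivAt_left D _ i j k y z).const_mul _).sub
      (((profLapD_hasDerivAt_left D _ i j k y z).const_mul _).const_mul _)
  have hr : ∀ t j k y z, HasDerivAt (fun s => H t j k y s) (H t j (k + 1) y z) z := by
    intro t j k y z
    exact ((profD_hasDerivAt_right D _ i j k y z).const_mul _).sub
      (((profLapD_hasDerivAt_right D _ i j k y z).const_mul _).const_mul _)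
  have h0 : (fun s y => force ν D s y i) = GG H c 0 := by
    funext s y
    simp only [GG, force, Pi.sub_apply, Pi.smul_apply, smul_eq_mul, phase_apply, phaseLap_apply,
      Pi.zero_apply, if_true, hH, hc]
    ring
  have h1 : GG H c (sel a.2) = fun t x =>
      iteratedDeriv 0 th' (Int.fract t) * phaseD D ⌊t⌋ a.2 i x
        - ν * (iteratedDeriv 0 th (Int.fract t) * phaseLapD D ⌊t⌋ a.2 i x) := by
    funext s y
    simp only [GG, phaseD, phaseLapD, iteratedDeriv_zero, hH, hc]
    split_ifs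
    · rfl
    · simp
  unfold mixedDeriv
  rw [h0, dX_all_GG c hl hr a.2, h1,
    dT_iter_switch (g1 := fun r => iteratedDeriv r th') (g2 := fun r => iteratedDeriv r th)
      (fun r s => hasDerivAt_iteratedDeriv th'_contDiff r s)
      (fun r s => hasDerivAt_iteratedDeriv th_contDiff r s)
      iteratedDeriv_th'_eq_zero iteratedDeriv_th_eq_zero ν
      (fun n x => phaseD D n a.2 i x) (fun n x => phaseLapD D n a.2 i x) a.1]

end Vale.Agent.Lib.P113
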