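import Vale.Agent.Lib.P113_helper29.PeriodicIBP

/-!
Coordinate derivatives along coordinate lines, periodic functions: small calculus.
-/

namespace Vale.Agent.Lib.P113

open Set MeasureTheory

/-- `G'` is the coordinate derivative of `G` in direction `j`, everywhere. -/
def PD (j : Fin 3) (G G' : R3 → ℝ) : Prop :=
  ∀ x, HasDerivAt (fun s => G (Function.update x j s)) (G' x) (x j)

theorem PD.mul {j : Fin 3} {G G' H H' : R3 → ℝ} (hG : PD j G G') (hH : PD j H H') :
    PD j (fun x => G x * H x) (fun x => G' x * H x + G x * H' x) := by
  intro x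
  have := (hG x).fun_mul (hH x)
  simpa [Function.update_eq_self] using this

theorem PD.add {j : Fin 3} {G G' H H' : R3 → ℝ} (hG : PD j G G') (hH : PD j H H') :
    PD j (fun x => G x + H x) (fun x => G' x + H' x) := by
  intro x
  exact (hG x).add (hH x)

theorem PD.sub {j : Fin 3} {G G' H H' : R3 → ℝ} (hG : PD j G G') (hH : PD j H H') :
    PD j (fun x => G x - H x) (fun x => G' x - H' x) := by
  intro x
  exact (hG x).sub (hH x)

theorem PD.unique {j : Fin 3} {G G' G'' : R3 → ℝ} (h1 : PD j G G') (h2 : PD j G G'') :
    G' = G'' := by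
  funext x
  exact (h1 x).unique (h2 x)

theorem PD.integral_eq_zero {j : Fin 3} {G G' : R3 → ℝ} (h : PD j G G') (hper : Per G)
    (hc : Continuous G') : ∫ x in Icc (0 : R3) 1, G' x = 0 :=
  integral_partial_eq_zero j G G' hper hc h

theorem Per.mul {G H : R3 → ℝ} (hG : Per G) (hH : Per H) : Per (fun x => G x * H x) := by
  intro x i
  simp only [hG x i, hH x i]

theorem Per.add {G H : R3 → ℝ} (hG : Per G) (hH : Per H) : Per (fun x => G x + H x) := by
  intro x i
  simp only [hG x i, hH x i]

theorem Per.sub {G H : R3 → ℝ} (hG : Per G) (hH : Per H) : Per (fun x => G x - H x) := by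
  intro x i
  simp only [hG x i, hH x i]

theorem Per.comp_apply {g : R3 → R3} (hg : Per g) (i : Fin 3) : Per (fun x => g x i) := by
  intro x k
  simp only [hg x k]

/-- The coordinate derivative of a periodic function is periodic. -/
theorem PD.per {j : Fin 3} {G G' : R3 → ℝ} (h : PD j G G') (hper : Per G) : Per G' := by
  intro x k
  have h1 := h (x + Pi.single k 1)
  have h2 := h x
  by_cases hkj : k = j
  · subst hkj
    have e1 : (x + Pi.single k 1 : R3) k = x k + 1 := by simp
    have e2 : (fun s => G (Function.update (x + Pi.single k 1) k s))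
        = fun s => G (Function.update x k s) := by
      funext s
      congr 1
      ext i
      by_cases hi : i = k
      · subst hi; simp
      · simp [Function.update_of_ne hi, Pi.single_eq_of_ne hi]
    rw [e1, e2] at h1
    have h3 : HasDerivAt (fun s => G (Function.update x k (s + 1))) (G' (x + Pi.single k 1)) (x k) := by
      have := h1.comp_add_const (x k) 1
      simpa using this
    have e3 : (fun s => G (Function.update x k (s + 1))) = fun s => G (Function.update x k s) := by
      funext s
      rw [← hper (Function.update x k s) k]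
      congr 1
      ext i
      by_cases hi : i = k
      · subst hi; simp
      · simp [Function.update_of_ne hi, Pi.single_eq_of_ne hi]
    rw [e3] at h3
    exact h3.unique h2
  · have hjk : j ≠ k := fun h => hkj h.symm
    have e1 : (x + Pi.single k 1 : R3) j = x j := by simp [Pi.single_eq_of_ne hjk]
    have e2 : (fun s => G (Function.update (x + Pi.single k 1) j s))
        = fun s => G (Function.update x j s) := by
      funext s
      rw [← hper (Function.update x j s) k]
      congr 1
      ext i
      by_cases hi : i = j
      · subst hi; simp [Pi.single_eq_of_ne hjk]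
      · simp [Function.update_of_ne hi]
    rw [e1, e2] at h1
    exact h1.unique h2

theorem Per.int_single {β : Type} {g : R3 → β} (hg : Per g) (i : Fin 3) (n : ℤ) (x : R3) :
    g (x + Pi.single i (n : ℝ)) = g x := by
  induction n using Int.induction_on with
  | zero => simp
  | succ n ih =>
    have : x + Pi.single i (((n : ℤ) + 1 : ℤ) : ℝ) = (x + Pi.single i ((n : ℤ) : ℝ)) + Pi.single i 1 := by
      rw [add_assoc, ← Pi.single_add]
      push_cast
      rfl
    rw [this, hg, ih]
  | pred n ih =>
    have : x + Pi.single i ((-(n : ℤ) : ℤ) : ℝ)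
        = (x + Pi.single i ((-(n : ℤ) - 1 : ℤ) : ℝ)) + Pi.single i 1 := by
      rw [add_assoc, ← Pi.single_add]
      push_cast
      congr 2
      ring
    rw [this, hg] at ih
    exact ih

/-- A periodic function is determined by its values on the unit cube. -/
theorem Per.exists_cube {β : Type} {g : R3 → β} (hg : Per g) (x : R3) :
    ∃ y ∈ Icc (0 : R3) 1, g x = g y := by
  refine ⟨fun i => Int.fract (x i), ⟨fun i => Int.fract_nonneg _, fun i => (Int.fract_lt_one _).le⟩, ?_⟩
  have : x = (((fun i => Int.fract (x i)) + Pi.single 0 ((⌊x 0⌋ : ℤ) : ℝ))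
      + Pi.single 1 ((⌊x 1⌋ : ℤ) : ℝ)) + Pi.single 2 ((⌊x 2⌋ : ℤ) : ℝ) := by
    ext i
    fin_cases i <;> simp
  conv_lhs => rw [this]
  rw [hg.int_single, hg.int_single, hg.int_single]

end Vale.Agent.Lib.P113
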