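import Vale.Agent.Lib.P113.Defs

/-!
Periodic integration by parts on the unit cube.
-/

namespace Vale.Agent.Lib.P113

open Set MeasureTheory

theorem insertNth_one_eq (j : Fin 3) (y : Fin 2 → ℝ) :
    (j.insertNth (1 : ℝ) y : R3) = (j.insertNth (0 : ℝ) y : R3) + Pi.single j 1 := by
  ext k
  rcases Fin.eq_self_or_eq_succAbove j k with h | ⟨i, h⟩
  · subst h; simp
  · subst h
    simp [Fin.succAbove_ne]

/-- If `G` is periodic and has a continuous coordinate derivative `G'` in direction `j`,
then the integral of `G'` over the unit cube vanishes. -/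
theorem integral_partial_eq_zero (j : Fin 3) (G G' : R3 → ℝ) (hper : Per G) (hc : Continuous G')
    (hd : ∀ x, HasDerivAt (fun s => G (Function.update x j s)) (G' x) (x j)) :
    ∫ x in Icc (0 : R3) 1, G' x = 0 := by
  let e := MeasurableEquiv.piFinSuccAbove (fun _ : Fin 3 => ℝ) j
  have hmp : MeasurePreserving e.symm volume volume :=
    (volume_preserving_piFinSuccAbove (fun _ : Fin 3 => ℝ) j).symm e
  have h1 := hmp.setIntegral_preimage_emb e.symm.measurableEmbedding G' (Icc (0 : R3) 1)
  rw [← h1]
  have hpre : e.symm ⁻¹' (Icc (0 : R3) 1) = Icc (0 : ℝ) 1 ×ˢ Icc (0 : Fin 2 → ℝ) 1 := by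
    ext z
    obtain ⟨s, y⟩ := z
    simp only [mem_preimage, mem_prod]
    have : e.symm (s, y) = (j.insertNth s y : R3) := rfl
    rw [this, Fin.insertNth_mem_Icc]
    rfl
  rw [hpre]
  have hes : ∀ z : ℝ × (Fin 2 → ℝ), e.symm z = (j.insertNth z.1 z.2 : R3) := by
    intro z
    rfl
  have hcont : Continuous (fun z : ℝ × (Fin 2 → ℝ) => G' (e.symm z)) := by
    apply hc.comp
    have : (⇑e.symm : ℝ × (Fin 2 → ℝ) → R3) = fun z => (j.insertNth z.1 z.2 : R3) :=
      funext hes
    rw [this]
    exact Continuous.finInsertNth j continuous_fst continuous_snd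
  have hint : IntegrableOn (fun z : ℝ × (Fin 2 → ℝ) => G' (e.symm z))
      (Icc (0 : ℝ) 1 ×ˢ Icc (0 : Fin 2 → ℝ) 1) (volume.prod volume) :=
    hcont.continuousOn.integrableOn_compact (isCompact_Icc.prod isCompact_Icc)
  have hvol : (volume : Measure (ℝ × (Fin 2 → ℝ))) = volume.prod volume := rfl
  rw [hvol, ← Measure.prod_restrict, integral_prod_symm]
  · apply integral_eq_zero_of_ae
    filter_upwards with y
    simp only [hes, Pi.zero_apply]
    rw [integral_Icc_eq_integral_Ioc, ← intervalIntegral.integral_of_le zero_le_one]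
    rw [intervalIntegral.integral_eq_sub_of_hasDerivAt (f := fun s => G (j.insertNth s y))]
    · rw [insertNth_one_eq, hper, sub_self]
    · intro s _
      have := hd (j.insertNth s y)
      simpa [Fin.update_insertNth] using this
    · apply Continuous.intervalIntegrable
      exact hc.comp (Continuous.finInsertNth j continuous_id continuous_const)
  · rw [Measure.prod_restrict]
    exact hint

end Vale.Agent.Lib.P113
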